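import Vale.Agent.P281.H723.KD.Alg

/-! P281, block KD-BK: `Δ log det (b g⁻¹ b*) ≥ tr_b Ric(g)` for holomorphic `b`. -/

open scoped Manifold ContDiff ComplexOrder Topology Matrix
open Vale.Agent.P272.K Vale.Agent.P272.K.C2 Vale.Agent.P299.H954 Vale.Agent.P299.H882

set_option linter.all false

noncomputable section

namespace Vale.Agent.P281.H723.KD

variable {n p : ℕ} {z : Cm n}

theorem cHess_log_det' {P : Cm n → Matrix (Fin p) (Fin p) ℂ} (hG : MC 2 P z)
    (hpos : ∀ᶠ y in 𝓝 z, (P y).PosDef) (i j : Fin n) :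
    cHess (fun y => Real.log (P y).det.re) z i j =
      ((P z)⁻¹ * D2 i j P z).trace - ((P z)⁻¹ * DM i P z * (P z)⁻¹ * DMb j P z).trace := by
  have one : (1 : WithTop ℕ∞) ≠ 0 := by norm_num
  have hG1 : MC 1 P z := hG.mono (by norm_num)
  have h0 : (P z).det ≠ 0 := posDef_det_ne_zero hpos.self_of_nhds
  have e : (dzb j fun y => ((Real.log (P y).det.re : ℝ) : ℂ)) =ᶠ[𝓝 z]
      fun y => ((P y)⁻¹ * DMb j P y).trace := by
    filter_upwards [MC.eventually (q := 1) hG1, hpos.eventually_nhds] with y h1 h2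
    have h3 : (P y).PosDef := h2.self_of_nhds
    have hd : DifferentiableAt ℝ (fun y => (P y).det.re) y :=
      Complex.reCLM.differentiableAt.comp y (h1.det.differentiableAt one)
    rw [dzb_comp_real j (Real.hasDerivAt_log (det_re_pos h3).ne') hd]
    have e2 : (fun y => (((P y).det.re : ℝ) : ℂ)) =ᶠ[𝓝 y] fun y => (P y).det := by
      filter_upwards [h2] with y' h4 using det_re_eq h4
    rw [dzb_congr j e2, dzb_det (h1.md one) (posDef_det_ne_zero h3), ← mul_assoc]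
    have : (((P y).det.re)⁻¹ : ℝ) * (P y).det = 1 := by
      rw [← det_re_eq h3, ← Complex.ofReal_mul, Complex.ofReal_re,
        inv_mul_cancel₀ (det_re_pos h3).ne', Complex.ofReal_one]
    rw [this, one_mul]
  have hGi : MC 1 (fun y => (P y)⁻¹) z := hG1.inv h0
  have hGj : MC 1 (DMb j P) z := hG.DMb (by norm_num)
  rw [C2.cHess_apply, dz_congr i e, dz_trace ((hGi.mul hGj).md one),
    DM_mul (hGi.md one) (hGj.md one), DM_inv hG1 h0, Matrix.trace_add, Matrix.neg_mul,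
    Matrix.trace_neg]
  ring

variable {G : Cm n → Matrix (Fin n) (Fin n) ℂ} {b : Cm n → Matrix (Fin p) (Fin n) ℂ}

/-- **Bochner**: `Δ log det (b g⁻¹ b*) ≥ tr_b Ric(g)`. -/
theorem bochner (hG : MC 2 G z) (hpos : ∀ᶠ y in 𝓝 z, (G y).PosDef)
    (hK : ∀ᶠ y in 𝓝 z, ∀ i j k, dz k (fun y => G y i j) y = dz i (fun y => G y k j) y)
    (hb : MC 2 b z) (hbh : HolNear b z) (h0 : (gm (b z) (G z)).det ≠ 0) :
    (trb (b z) (G z) (ric G z)).re ≤
      ((G z)⁻¹ * cHess (fun y => Real.log (gm (b y) (G y)).det.re) z).trace.re := by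
  have hg := hpos.self_of_nhds
  have hg0 : (G z).det ≠ 0 := hg.det_pos.ne'
  set H : Cm n → Matrix (Fin n) (Fin n) ℂ := dual G with hH
  have hHc : MC 2 H z := MC_dual hG hg0
  have hHh : ∀ᶠ y in 𝓝 z, (H y).IsHermitian := by
    filter_upwards [hpos] with y hy using (dual_posDef' hy).isHermitian
  have hH0 : (H z).det ≠ 0 := (dual_posDef' hg).det_pos.ne'
  set P : Cm n → Matrix (Fin p) (Fin p) ℂ := fun y => b y * H y * (b y)ᴴ with hP
  have hPg : (fun y => gm (b y) (G y)) = P := rfl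
  have hPc : MC 2 P z := (hb.mul hHc).mul hb.conjTranspose
  have hPd : (P z).det ≠ 0 := h0
  have hPpos : ∀ᶠ y in 𝓝 z, (P y).PosDef := by
    filter_upwards [hpos, det_ne_zero_eventually (hPc.mono (by norm_num)) hPd] with y h1 h2
    exact gm_posDef h1 h2
  have hb1 : MC 1 b z := hb.mono (by norm_num)
  have hH1 : MC 1 H z := hHc.mono (by norm_num)
  have key : ∀ k l, cHess (fun y => Real.log (P y).det.re) z k l =
      ((P z)⁻¹ * nab k b H z * (H z - Mb (b z) (G z)) * (nab l b H z)ᴴ).trace -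
        ((P z)⁻¹ * (b z * RM k l H z * (b z)ᴴ)).trace := by
    intro k l
    rw [cHess_log_det' hPc hPpos k l]
    have e1 : D2 k l P z = nab k b H z * H z * (nab l b H z)ᴴ - b z * RM k l H z * (b z)ᴴ :=
      D2_sandwich hb hHc hbh hHh hH0
    have e2 : DM k P z = nab k b H z * H z * (b z)ᴴ := DM_sandwich' hb1 hH1 (hbh.self k) hH0
    have e3 : DMb l P z = b z * H z * (nab l b H z)ᴴ := DMb_sandwich' hb1 hH1 (hbh.self l) hHh hH0
    rw [e1, e2, e3]
    have e4 : (P z)⁻¹ * nab k b H z * (H z - Mb (b z) (G z)) * (nab l b H z)ᴴ =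
        (P z)⁻¹ * (nab k b H z * H z * (nab l b H z)ᴴ) -
          (P z)⁻¹ * (nab k b H z * H z * (b z)ᴴ) * (P z)⁻¹ * (b z * H z * (nab l b H z)ᴴ) := by
      have : Mb (b z) (G z) = H z * (b z)ᴴ * (P z)⁻¹ * (b z * H z) := rfl
      rw [this, Matrix.mul_sub, Matrix.sub_mul]
      simp only [Matrix.mul_assoc]
    rw [e4, Matrix.trace_sub, Matrix.mul_sub, Matrix.trace_sub]
    ring
  have e5 : ((G z)⁻¹ * cHess (fun y => Real.log (P y).det.re) z).trace =
      ∑ l, ∑ k, (G z)⁻¹ l k * cHess (fun y => Real.log (P y).det.re) z k l := by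
    simp only [Matrix.trace, Matrix.diag_apply, Matrix.mul_apply]
  have e6 : ∑ l, ∑ k, (G z)⁻¹ l k * ((P z)⁻¹ * (b z * RM k l H z * (b z)ᴴ)).trace =
      ((P z)⁻¹ * (b z * RmS G H z * (b z)ᴴ)).trace := by
    rw [RmS]
    simp only [Matrix.mul_sum, Matrix.sum_mul, Matrix.mul_smul, Matrix.smul_mul,
      Matrix.trace_sum, Matrix.trace_smul, smul_eq_mul]
  have e7 : RmS G H z = -((G z)⁻¹ * ric G z * (G z)⁻¹)ᵀ := by
    rw [hH, RmS_dual hG hg0, RmS_self hG hpos hK]
  have e8 : ((P z)⁻¹ * (b z * RmS G H z * (b z)ᴴ)).trace = -trb (b z) (G z) (ric G z) := by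
    have hPz : P z = gm (b z) (G z) := rfl
    have e9 : ((G z)⁻¹ * ric G z * (G z)⁻¹)ᵀ = ((G z)⁻¹)ᵀ * (ric G z)ᵀ * ((G z)⁻¹)ᵀ := by
      rw [Matrix.transpose_mul, Matrix.transpose_mul, Matrix.mul_assoc]
    rw [e7, hPz, e9, Matrix.mul_neg, Matrix.neg_mul, Matrix.mul_neg, Matrix.trace_neg]
    rfl
  have hnn := sum_trace_nonneg' (R := (G z)⁻¹) (P := (P z)⁻¹) (Q := H z - Mb (b z) (G z))
    hg.inv.posSemidef hPpos.self_of_nhds.inv.posSemidef (sub_psd hg h0) (fun k => nab k b H z)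
  have hfin : ((G z)⁻¹ * cHess (fun y => Real.log (P y).det.re) z).trace =
      ∑ l, ∑ k, (G z)⁻¹ l k * ((P z)⁻¹ * nab k b H z * (H z - Mb (b z) (G z)) *
        (nab l b H z)ᴴ).trace + trb (b z) (G z) (ric G z) := by
    rw [e5]
    simp only [key, mul_sub, Finset.sum_sub_distrib]
    rw [e6, e8, sub_neg_eq_add]
  rw [show (fun y => Real.log (gm (b y) (G y)).det.re) = fun y => Real.log (P y).det.re from rfl,
    hfin, Complex.add_re]
  have := (Complex.le_def.1 hnn).1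
  rw [Complex.zero_re] at this
  linarith

end Vale.Agent.P281.H723.KD
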