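import Vale.Agent.P281.H713.KD.Iface
import Vale.Agent.P281.H167.GM.Tools
import Vale.Agent.P281.H723.KD.Boch

/-! P281, block KD-BK: local computations. -/

open scoped Manifold ContDiff ComplexOrder Topology Matrix
open Filter Vale.Agent.P272.K Vale.Agent.P272.K.AMP Vale.Agent.P299
open Vale.Agent.P299.H954 Vale.Agent.P299.H882
open Vale.Agent.P272.K.INT (IsClosedForm)

set_option linter.all false

noncomputable section

namespace Vale.Agent.P281.H723.KD

open Vale.Agent.P281.H713.KD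
open Vale.Agent.P281.H167.GM (phiD)

variable {n M p : ℕ} {X : Type} [TopologicalSpace X] [ChartedSpace (Cm n) X]
  {Dv : Fin M → Set X} {r : Fin M → X → ℝ} {R : Fin M → D.FormM n X} {e : Chart n X} {x : X}

lemma r_nonneg (hBd : IsBd Dv r R) (i : Fin M) (x : X) : 0 ≤ r i x := by
  have hx := AMP.at_chartAt (n := n) x
  obtain ⟨g, ψ, -, -, -, -, hev⟩ := hBd.loc _ x hx
  have h1 := (hev.self_of_nhds i).1
  rw [hx.left_inv] at h1
  rw [h1]
  positivity

/-- `log r` is smooth where `r > 0` -/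
lemma contDiffAt_log_r (hrs : ∀ i, SmoothFn (n := n) (r i)) (hx : At e x) (i : Fin M)
    (hr : 0 < r i x) : ContDiffAt ℝ ∞ (fun z => Real.log (r i (e.symm z))) (e x) := by
  refine (hrs i e x hx).log ?_
  rw [hx.left_inv]
  exact hr.ne'

/-- `i∂∂̄ log r = - R` off the divisor -/
lemma cHess_log_r (hBd : IsBd Dv r R) (hx : At e x) (i : Fin M) (hr : 0 < r i x) :
    cHess (fun z => Real.log (r i (e.symm z))) (e x) = -R i e (e x) := by
  obtain ⟨g, ψ, hg, hψ, -, -, hev⟩ := hBd.loc e x hx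
  have h1 := (hev.self_of_nhds i).1
  rw [hx.left_inv] at h1
  have hg0 : g i (e x) ≠ 0 := by
    intro h0
    rw [h0] at h1
    simp at h1
    exact hr.ne' h1
  have hgC : ContDiffAt ℂ ω (g i) (e x) := (hg i).contDiffAt
  have hg2 : ContDiffAt ℝ 2 (g i) (e x) := (hgC.restrict_scalars ℝ).of_le (by simp)
  have hψ2 : ContDiffAt ℝ 2 (ψ i) (e x) := (hψ i).of_le (by norm_cast)
  have hl2 : ContDiffAt ℝ 2 (fun z => Real.log (‖g i z‖ ^ 2)) (e x) :=
    (hg2.norm_sq ℝ).log (by positivity)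
  have e1 : (fun z => Real.log (r i (e.symm z))) =ᶠ[𝓝 (e x)]
      fun z => Real.log (‖g i z‖ ^ 2) - ψ i z := by
    filter_upwards [hev, (hg i).continuousAt.eventually_ne hg0] with z hz hz0
    have : (0 : ℝ) < ‖g i z‖ ^ 2 := by positivity
    rw [(hz i).1, Real.log_mul this.ne' (Real.exp_pos _).ne', Real.log_exp]
    ring
  rw [C2.cHess_congr e1, C2.cHess_sub hl2 hψ2, cHess_log_norm_sq hgC hg0, zero_sub,
    (hev.self_of_nhds i).2]

/-- the local form of `S` -/
theorem cHess_log_S (hBd : IsBd Dv r R) (hrs : ∀ i, SmoothFn (n := n) (r i))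
    (hx : At e x) (hr : ∀ i, 0 < r i x) {ε : ℝ} (hε : 0 < ε) {g : D.FormM n X} (hg : IsKahler g)
    {K : Fin M → ℕ} {μ : ℕ} {c : Cm n → ℂ} {b : Cm n → Matrix (Fin p) (Fin n) ℂ}
    (hc : AnalyticAt ℂ c (e x)) (hb : ∀ j l, AnalyticAt ℂ (fun z => b z j l) (e x))
    {S : X → ℝ} (hS : SmoothFn (n := n) S) (hS0 : 0 < S x)
    (hloc : ∀ᶠ z in 𝓝 (e x), S (e.symm z) = ‖c z‖ ^ 2 * (∏ i, r i (e.symm z) ^ K i) *
      gramD (b z) (g e z) ^ μ * ∏ i, (r i (e.symm z) + ε)⁻¹ ^ K i) :
    (μ ≠ 0 → (gm (b (e x)) (g e (e x))).det ≠ 0) ∧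
    μ * (trb (b (e x)) (g e (e x)) (D.ric g e (e x))).re -
        ∑ i, K i * trE g (dF (r i) (R i) ε) e (e x) ≤
      ((g e (e x))⁻¹ * cHess (fun z => Real.log (S (e.symm z))) (e x)).trace.re := by
  have hgP := hg.posDef e x hx
  set f : Cm n → ℝ := fun z => S (e.symm z) with hf
  have hfx : f (e x) = S x := by simp only [hf]; rw [hx.left_inv]
  have hf0 : 0 < f (e x) := by rw [hfx]; exact hS0
  have hfne : ∀ᶠ z in 𝓝 (e x), f z ≠ 0 :=
    (hS e x hx).continuousAt.eventually_ne hf0.ne'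
  -- the four factors
  have hfac : ∀ᶠ z in 𝓝 (e x), ‖c z‖ ^ 2 ≠ 0 ∧ (∀ i, r i (e.symm z) ^ K i ≠ 0) ∧
      gramD (b z) (g e z) ^ μ ≠ 0 ∧ (∀ i, (r i (e.symm z) + ε)⁻¹ ^ K i ≠ 0) := by
    filter_upwards [hfne, hloc] with z h1 h2
    have h3 : f z = _ := h2
    rw [h3] at h1
    have h4 := left_ne_zero_of_mul h1
    have h5 := right_ne_zero_of_mul h1
    have h6 := left_ne_zero_of_mul h4
    exact ⟨left_ne_zero_of_mul h6, fun i => Finset.prod_ne_zero_iff.1
      (right_ne_zero_of_mul h6) i (Finset.mem_univ i), right_ne_zero_of_mul h4,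
      fun i => Finset.prod_ne_zero_iff.1 h5 i (Finset.mem_univ i)⟩
  have hlog : (fun z => Real.log (f z)) =ᶠ[𝓝 (e x)] fun z => (Real.log (‖c z‖ ^ 2) +
      ∑ i, (K i : ℝ) * (Real.log (r i (e.symm z)) - Real.log (r i (e.symm z) + ε))) +
        (μ : ℝ) * Real.log (gramD (b z) (g e z)) := by
    filter_upwards [hfac, hloc] with z h1 h2
    obtain ⟨a1, a2, a3, a4⟩ := h1
    have h3 : f z = _ := h2
    rw [h3, Real.log_mul (mul_ne_zero (mul_ne_zero a1 (Finset.prod_ne_zero_iff.2 fun i _ => a2 i))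
      a3) (Finset.prod_ne_zero_iff.2 fun i _ => a4 i), Real.log_mul (mul_ne_zero a1
      (Finset.prod_ne_zero_iff.2 fun i _ => a2 i)) a3, Real.log_mul a1
      (Finset.prod_ne_zero_iff.2 fun i _ => a2 i), Real.log_prod fun i _ => a2 i,
      Real.log_prod fun i _ => a4 i, Real.log_pow (gramD (b z) (g e z)) μ]
    have e1 : ∑ i, Real.log (r i (e.symm z) ^ K i) + ∑ i, Real.log ((r i (e.symm z) + ε)⁻¹ ^ K i) =
        ∑ i, (K i : ℝ) * (Real.log (r i (e.symm z)) - Real.log (r i (e.symm z) + ε)) := by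
      rw [← Finset.sum_add_distrib]
      refine Finset.sum_congr rfl fun i _ => ?_
      rw [Real.log_pow, Real.log_pow, Real.log_inv]
      ring
    linarith
  have hc0 : c (e x) ≠ 0 := by
    have := hfac.self_of_nhds.1
    intro h0
    rw [h0] at this
    simp at this
  have hcC : ContDiffAt ℂ ω c (e x) := hc.contDiffAt
  have hc2 : ContDiffAt ℝ 2 (fun z => Real.log (‖c z‖ ^ 2)) (e x) :=
    (((hcC.restrict_scalars ℝ).of_le (by simp : (2 : WithTop ℕ∞) ≤ ω)).norm_sq ℝ).log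
      (by positivity)
  have hrε : ∀ i, ContDiffAt ℝ 2 (fun z => Real.log (r i (e.symm z) + ε)) (e x) := fun i => by
    refine (((hrs i e x hx).of_le (by norm_cast)).add contDiffAt_const).log ?_
    rw [hx.left_inv]
    have := hr i
    positivity
  have hrl : ∀ i, ContDiffAt ℝ 2 (fun z => Real.log (r i (e.symm z))) (e x) := fun i =>
    (contDiffAt_log_r hrs hx i (hr i)).of_le (by norm_cast)
  have hsum : ∀ i ∈ (Finset.univ : Finset (Fin M)), ContDiffAt ℝ 2 (fun z => (K i : ℝ) *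
      (Real.log (r i (e.symm z)) - Real.log (r i (e.symm z) + ε))) (e x) := fun i _ =>
    contDiffAt_const.mul ((hrl i).sub (hrε i))
  have hsum' : ContDiffAt ℝ 2 (fun z => ∑ i, (K i : ℝ) *
      (Real.log (r i (e.symm z)) - Real.log (r i (e.symm z) + ε))) (e x) :=
    ContDiffAt.sum hsum
  have hH1 : cHess (fun z => ∑ i, (K i : ℝ) * (Real.log (r i (e.symm z)) -
      Real.log (r i (e.symm z) + ε))) (e x) = -∑ i, ((K i : ℝ) : ℂ) • dF (r i) (R i) ε e (e x) := by
    rw [cHess_sum _ hsum, ← Finset.sum_neg_distrib]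
    refine Finset.sum_congr rfl fun i _ => ?_
    rw [C2.cHess_const_mul _ ((hrl i).sub (hrε i)), C2.cHess_sub (hrl i) (hrε i),
      cHess_log_r hBd hx i (hr i), ← smul_neg]
    congr 1
    simp only [dF]
    abel
  have htr1 : ((g e (e x))⁻¹ * (-∑ i, ((K i : ℝ) : ℂ) • dF (r i) (R i) ε e (e x))).trace.re =
      -∑ i, K i * trE g (dF (r i) (R i) ε) e (e x) := by
    rw [Matrix.mul_neg, Matrix.trace_neg, Complex.neg_re, Matrix.mul_sum, Matrix.trace_sum,
      Complex.re_sum]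
    congr 1
    refine Finset.sum_congr rfl fun i _ => ?_
    rw [Matrix.mul_smul, Matrix.trace_smul, smul_eq_mul, Complex.re_ofReal_mul]
    rfl
  by_cases hμ : μ = 0
  · refine ⟨fun h => absurd hμ h, ?_⟩
    have e2 : cHess (fun z => Real.log (f z)) (e x) =
        -∑ i, ((K i : ℝ) : ℂ) • dF (r i) (R i) ε e (e x) := by
      rw [C2.cHess_congr hlog, ← hH1]
      have e3 : (fun z => (Real.log (‖c z‖ ^ 2) +
          ∑ i, (K i : ℝ) * (Real.log (r i (e.symm z)) - Real.log (r i (e.symm z) + ε))) +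
          (μ : ℝ) * Real.log (gramD (b z) (g e z))) = fun z => Real.log (‖c z‖ ^ 2) +
          ∑ i, (K i : ℝ) * (Real.log (r i (e.symm z)) - Real.log (r i (e.symm z) + ε)) := by
        funext z
        rw [hμ]
        simp
      rw [e3, C2.cHess_add hc2 hsum', cHess_log_norm_sq hcC hc0, zero_add]
    rw [e2, htr1, hμ]
    simp
  · have hG0 : gramD (b (e x)) (g e (e x)) ≠ 0 := by
      have := hfac.self_of_nhds.2.2.1
      intro h0
      rw [h0] at this
      exact this (zero_pow hμ)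
    have hdet : (gm (b (e x)) (g e (e x))).det ≠ 0 := by
      intro h0
      apply hG0
      show (gm (b (e x)) (g e (e x))).det.re = 0
      rw [h0, Complex.zero_re]
    refine ⟨fun _ => hdet, ?_⟩
    have hbC : C2.MC 2 b (e x) := fun j l =>
      (((hb j l).contDiffAt (n := ω)).restrict_scalars ℝ).of_le (by simp)
    have hGC : C2.MC 2 (g e) (e x) := IsHermitian.MC hg.toIsHermitian hx
    have hPC : C2.MC 2 (fun z => gm (b z) (g e z)) (e x) :=
      (hbC.mul (MC_dual hGC hgP.det_pos.ne')).mul hbC.conjTranspose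
    have hPpos : (gm (b (e x)) (g e (e x))).PosDef := gm_posDef hgP hdet
    have hPl : ContDiffAt ℝ 2 (fun z => Real.log (gramD (b z) (g e z))) (e x) := by
      have h1 : ContDiffAt ℝ 2 (fun z => (gm (b z) (g e z)).det.re) (e x) :=
        Complex.reCLM.contDiff.contDiffAt.comp (e x) hPC.det
      exact h1.log (C2.det_re_pos hPpos).ne'
    have hbh : HolNear b (e x) := holNear_of_analyticAt hb
    have hBo := bochner hGC (IsHermitian.ev_posDef hg.toIsHermitian hx) (IsKahler.ev_closed hg hx)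
      hbC hbh hdet
    have e2 : cHess (fun z => Real.log (f z)) (e x) =
        -∑ i, ((K i : ℝ) : ℂ) • dF (r i) (R i) ε e (e x) +
          ((μ : ℝ) : ℂ) • cHess (fun z => Real.log (gramD (b z) (g e z))) (e x) := by
      rw [C2.cHess_congr hlog, ← hH1, C2.cHess_add (hc2.add hsum') (contDiffAt_const.mul hPl),
        C2.cHess_add hc2 hsum', cHess_log_norm_sq hcC hc0, zero_add, C2.cHess_const_mul _ hPl]
    rw [e2, Matrix.mul_add, Matrix.trace_add, Complex.add_re, htr1, Matrix.mul_smul,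
      Matrix.trace_smul, smul_eq_mul, Complex.re_ofReal_mul]
    have h5 : (μ : ℝ) * (trb (b (e x)) (g e (e x)) (D.ric g e (e x))).re ≤ μ *
        ((g e (e x))⁻¹ * cHess (fun z => Real.log (gramD (b z) (g e z))) (e x)).trace.re :=
      mul_le_mul_of_nonneg_left hBo (Nat.cast_nonneg μ)
    linarith

end Vale.Agent.P281.H723.KD
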