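import Vale.Agent.P299.H954.Tensor
import Vale.Agent.P299.H882.Mat

/-! P281, block KD-BK: linear algebra.  `H = (g⁻¹)ᵀ` is the dual metric, the rows of `b` are
covectors, `gm b g = b H b*` their Gram matrix, `Mb b g = H b* (b H b*)⁻¹ b H`. -/

open scoped ComplexOrder Matrix
open Vale.Agent.P272.K.C2 Vale.Agent.P299.H882

set_option linter.all false

noncomputable section

namespace Vale.Agent.P281.H723.KD

variable {n p : ℕ} {g : Matrix (Fin n) (Fin n) ℂ} {b : Matrix (Fin p) (Fin n) ℂ}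

/-- the Gram matrix of the rows of `b` -/
def gm (b : Matrix (Fin p) (Fin n) ℂ) (g : Matrix (Fin n) (Fin n) ℂ) : Matrix (Fin p) (Fin p) ℂ :=
  b * (g⁻¹)ᵀ * bᴴ

/-- the projection to the span of the rows of `b`, as a Hermitian form -/
def Mb (b : Matrix (Fin p) (Fin n) ℂ) (g : Matrix (Fin n) (Fin n) ℂ) : Matrix (Fin n) (Fin n) ℂ :=
  (g⁻¹)ᵀ * bᴴ * (gm b g)⁻¹ * (b * (g⁻¹)ᵀ)

/-- the trace over the span of the rows of `b` -/
def trb (b : Matrix (Fin p) (Fin n) ℂ) (g A : Matrix (Fin n) (Fin n) ℂ) : ℂ :=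
  ((gm b g)⁻¹ * (b * ((g⁻¹)ᵀ * Aᵀ * (g⁻¹)ᵀ) * bᴴ)).trace

theorem dual_posDef' (hg : g.PosDef) : ((g⁻¹)ᵀ).PosDef := hg.inv.transpose

theorem dual_herm (hg : g.PosDef) : ((g⁻¹)ᵀ)ᴴ = (g⁻¹)ᵀ := (dual_posDef' hg).isHermitian

theorem gm_psd (hg : g.PosDef) : (gm b g).PosSemidef :=
  (dual_posDef' hg).posSemidef.mul_mul_conjTranspose_same b

theorem gm_posDef (hg : g.PosDef) (h : (gm b g).det ≠ 0) : (gm b g).PosDef :=
  (gm_psd hg).posDef_iff_isUnit.2 ((Matrix.isUnit_iff_isUnit_det _).2 (isUnit_iff_ne_zero.2 h))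

theorem trb_eq (A : Matrix (Fin n) (Fin n) ℂ) : trb b g A = (Aᵀ * Mb b g).trace := by
  unfold trb Mb
  have h1 : (gm b g)⁻¹ * (b * ((g⁻¹)ᵀ * Aᵀ * (g⁻¹)ᵀ) * bᴴ) =
      ((gm b g)⁻¹ * (b * (g⁻¹)ᵀ)) * (Aᵀ * ((g⁻¹)ᵀ * bᴴ)) := by simp only [Matrix.mul_assoc]
  rw [h1, Matrix.trace_mul_comm]
  simp only [Matrix.mul_assoc]

theorem tr_eq (A : Matrix (Fin n) (Fin n) ℂ) : (g⁻¹ * A).trace = (Aᵀ * (g⁻¹)ᵀ).trace := by
  rw [← Matrix.transpose_mul, Matrix.trace_transpose]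

theorem Mb_psd (hg : g.PosDef) : (Mb b g).PosSemidef := by
  have h1 : ((gm b g)⁻¹).PosSemidef := (gm_psd hg).inv
  have h2 := h1.conjTranspose_mul_mul_same (b * (g⁻¹)ᵀ)
  rw [Matrix.conjTranspose_mul, dual_herm hg] at h2
  exact h2

theorem sub_Mb (hg : g.PosDef) (h : (gm b g).det ≠ 0) :
    (g⁻¹)ᵀ - Mb b g = (1 - (g⁻¹)ᵀ * bᴴ * (gm b g)⁻¹ * b) * (g⁻¹)ᵀ *
      (1 - (g⁻¹)ᵀ * bᴴ * (gm b g)⁻¹ * b)ᴴ := by
  have hP : (gm b g)ᴴ = gm b g := (gm_psd hg).isHermitian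
  have hPi : (gm b g)⁻¹ * gm b g = 1 := Matrix.nonsing_inv_mul _ (isUnit_iff_ne_zero.2 h)
  have e1 : (1 - (g⁻¹)ᵀ * bᴴ * (gm b g)⁻¹ * b)ᴴ = 1 - bᴴ * (gm b g)⁻¹ * b * (g⁻¹)ᵀ := by
    rw [Matrix.conjTranspose_sub, Matrix.conjTranspose_one, Matrix.conjTranspose_mul,
      Matrix.conjTranspose_mul, Matrix.conjTranspose_mul, Matrix.conjTranspose_conjTranspose,
      dual_herm hg, Matrix.conjTranspose_nonsing_inv, hP]
    simp only [Matrix.mul_assoc]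
  have e2 : (g⁻¹)ᵀ * bᴴ * (gm b g)⁻¹ * b * (g⁻¹)ᵀ * (bᴴ * (gm b g)⁻¹ * b * (g⁻¹)ᵀ) =
      (g⁻¹)ᵀ * bᴴ * (gm b g)⁻¹ * b * (g⁻¹)ᵀ := by
    calc (g⁻¹)ᵀ * bᴴ * (gm b g)⁻¹ * b * (g⁻¹)ᵀ * (bᴴ * (gm b g)⁻¹ * b * (g⁻¹)ᵀ)
        = (g⁻¹)ᵀ * bᴴ * ((gm b g)⁻¹ * (b * (g⁻¹)ᵀ * bᴴ)) * (gm b g)⁻¹ * b * (g⁻¹)ᵀ := by
          simp only [Matrix.mul_assoc]
      _ = _ := by
          rw [show b * (g⁻¹)ᵀ * bᴴ = gm b g from rfl, hPi, Matrix.mul_one]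
  rw [e1, Matrix.mul_sub, Matrix.mul_one, Matrix.sub_mul, Matrix.sub_mul, Matrix.one_mul, e2, Mb]
  have e3 : (g⁻¹)ᵀ * (bᴴ * (gm b g)⁻¹ * b * (g⁻¹)ᵀ) = (g⁻¹)ᵀ * bᴴ * (gm b g)⁻¹ * b * (g⁻¹)ᵀ := by
    simp only [Matrix.mul_assoc]
  have e4 : (g⁻¹)ᵀ * bᴴ * (gm b g)⁻¹ * (b * (g⁻¹)ᵀ) = (g⁻¹)ᵀ * bᴴ * (gm b g)⁻¹ * b * (g⁻¹)ᵀ := by
    simp only [Matrix.mul_assoc]
  rw [e3, e4]
  abel

theorem sub_psd (hg : g.PosDef) (h : (gm b g).det ≠ 0) : ((g⁻¹)ᵀ - Mb b g).PosSemidef := by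
  rw [sub_Mb hg h]
  exact (dual_posDef' hg).posSemidef.mul_mul_conjTranspose_same _

/-- the rows of `b` are in the kernel of `H - Mb` -/
theorem b_mul_sub (h : (gm b g).det ≠ 0) : b * ((g⁻¹)ᵀ - Mb b g) = 0 := by
  have hPi : gm b g * (gm b g)⁻¹ = 1 := Matrix.mul_nonsing_inv _ (isUnit_iff_ne_zero.2 h)
  have e : b * Mb b g = b * (g⁻¹)ᵀ := by
    calc b * Mb b g = (b * (g⁻¹)ᵀ * bᴴ) * (gm b g)⁻¹ * (b * (g⁻¹)ᵀ) := by
          unfold Mb; simp only [Matrix.mul_assoc]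
      _ = _ := by rw [show b * (g⁻¹)ᵀ * bᴴ = gm b g from rfl, hPi, Matrix.one_mul]
  rw [Matrix.mul_sub, e, sub_self]

theorem trb_nonneg {A : Matrix (Fin n) (Fin n) ℂ} (hg : g.PosDef) (hA : A.PosSemidef) :
    0 ≤ (trb b g A).re := by
  rw [trb_eq]
  exact (Complex.le_def.1 (trace_mul_nonneg hA.transpose (Mb_psd hg))).1

theorem trb_le {A : Matrix (Fin n) (Fin n) ℂ} (hg : g.PosDef) (h : (gm b g).det ≠ 0)
    (hA : A.PosSemidef) : (trb b g A).re ≤ (g⁻¹ * A).trace.re := by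
  rw [trb_eq, tr_eq]
  have := (Complex.le_def.1 (trace_mul_nonneg hA.transpose (sub_psd (b := b) hg h))).1
  rw [Matrix.mul_sub, Matrix.trace_sub, Complex.sub_re] at this
  simpa using this

theorem trb_add (A B : Matrix (Fin n) (Fin n) ℂ) : trb b g (A + B) = trb b g A + trb b g B := by
  simp only [trb_eq, Matrix.transpose_add, Matrix.add_mul, Matrix.trace_add]

theorem trb_sub (A B : Matrix (Fin n) (Fin n) ℂ) : trb b g (A - B) = trb b g A - trb b g B := by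
  simp only [trb_eq, Matrix.transpose_sub, Matrix.sub_mul, Matrix.trace_sub]

theorem trb_neg (A : Matrix (Fin n) (Fin n) ℂ) : trb b g (-A) = -trb b g A := by
  simp only [trb_eq, Matrix.transpose_neg, Matrix.neg_mul, Matrix.trace_neg]

theorem trb_smul (c : ℂ) (A : Matrix (Fin n) (Fin n) ℂ) : trb b g (c • A) = c * trb b g A := by
  simp only [trb_eq, Matrix.transpose_smul, Matrix.smul_mul, Matrix.trace_smul, smul_eq_mul]

theorem trb_sum {ι : Type*} (s : Finset ι) (A : ι → Matrix (Fin n) (Fin n) ℂ) :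
    trb b g (∑ i ∈ s, A i) = ∑ i ∈ s, trb b g (A i) := by
  simp only [trb_eq, Matrix.transpose_sum, Matrix.sum_mul, Matrix.trace_sum]

/-- `ξ (H - Mb) ξ*` -/
theorem trace_vec (K : Matrix (Fin n) (Fin n) ℂ) (ξ : Fin n → ℂ) :
    ((Matrix.vecMulVec ξ (star ξ))ᵀ * K).trace = ξ ⬝ᵥ (K *ᵥ star ξ) := by
  simp only [Matrix.trace, Matrix.diag_apply, Matrix.mul_apply, Matrix.transpose_apply,
    Matrix.vecMulVec_apply, dotProduct, Matrix.mulVec, Finset.mul_sum]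
  rw [Finset.sum_comm]
  refine Finset.sum_congr rfl fun i _ => Finset.sum_congr rfl fun j _ => ?_
  ring

theorem qf_eq_vec (ξ : Fin n → ℂ) : qf g ξ = (ξ ⬝ᵥ ((g⁻¹)ᵀ *ᵥ star ξ)).re := by
  unfold qf
  rw [tr_eq, trace_vec]

/-- the norm of `ξ` modulo the span of the rows of `b` -/
theorem trF_vec_le (hg : g.PosDef) (h : (gm b g).det ≠ 0) (ξ : Fin n → ℂ) (l : Fin p → ℂ) :
    (g⁻¹ * Matrix.vecMulVec ξ (star ξ)).trace.re - (trb b g (Matrix.vecMulVec ξ (star ξ))).re ≤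
      qf g (fun k => ξ k - ∑ j, l j * b j k) := by
  set η : Fin n → ℂ := fun k => ξ k - ∑ j, l j * b j k with hη
  have hη' : ξ = η + l ᵥ* b := by
    funext k
    simp only [hη, Pi.add_apply, Matrix.vecMul, dotProduct]
    ring
  set K : Matrix (Fin n) (Fin n) ℂ := (g⁻¹)ᵀ - Mb b g with hK
  have hKh : Kᴴ = K := (sub_psd hg h).isHermitian
  have h0 : b * K = 0 := b_mul_sub h
  have h0' : K * bᴴ = 0 := by
    have := congrArg Matrix.conjTranspose h0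
    rwa [Matrix.conjTranspose_mul, hKh, Matrix.conjTranspose_zero] at this
  have e1 : (g⁻¹ * Matrix.vecMulVec ξ (star ξ)).trace.re -
      (trb b g (Matrix.vecMulVec ξ (star ξ))).re = (ξ ⬝ᵥ (K *ᵥ star ξ)).re := by
    rw [tr_eq, trb_eq, trace_vec, trace_vec, ← Complex.sub_re, ← dotProduct_sub,
      ← Matrix.sub_mulVec]
  have e2 : K *ᵥ star ξ = K *ᵥ star η := by
    rw [hη', star_add, Matrix.mulVec_add]
    have : star (l ᵥ* b) = bᴴ *ᵥ star l := by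
      rw [Matrix.star_vecMul]
    rw [this, Matrix.mulVec_mulVec, h0', Matrix.zero_mulVec, add_zero]
  have e3 : ξ ⬝ᵥ (K *ᵥ star η) = η ⬝ᵥ (K *ᵥ star η) := by
    rw [hη', add_dotProduct, ← Matrix.dotProduct_mulVec, Matrix.mulVec_mulVec, h0,
      Matrix.zero_mulVec, dotProduct_zero, add_zero]
  have e4 : 0 ≤ (η ⬝ᵥ (Mb b g *ᵥ star η)).re := by
    have := (Mb_psd (b := b) hg).dotProduct_mulVec_nonneg (star η)
    rw [star_star] at this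
    exact (Complex.le_def.1 this).1
  rw [e1, e2, e3, qf_eq_vec, hK, Matrix.sub_mulVec, dotProduct_sub, Complex.sub_re]
  linarith

end Vale.Agent.P281.H723.KD
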