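import Vale.Agent.P281.H723.KD.Loc

/-! P281, block KD-BK: the Bochner inequality for the norms of decomposable meromorphic tensors. -/

open scoped Manifold ContDiff ComplexOrder Topology Matrix
open Filter Vale.Agent.P272.K Vale.Agent.P272.K.AMP Vale.Agent.P299
open Vale.Agent.P299.H954 Vale.Agent.P299.H882
open Vale.Agent.P272.K.INT (IsClosedForm)

set_option linter.all false

noncomputable section

namespace Vale.Agent.P281.H723.KD

open Vale.Agent.P281.H713.KD
open Vale.Agent.P281.H167.GM (phiD)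

section alg

variable {n M p : ℕ} {g χ Θ : Matrix (Fin n) (Fin n) ℂ} {b : Matrix (Fin p) (Fin n) ℂ}

/-- `tr_g A` -/
def T (g A : Matrix (Fin n) (Fin n) ℂ) : ℝ := (g⁻¹ * A).trace.re

lemma T_add (A B : Matrix (Fin n) (Fin n) ℂ) : T g (A + B) = T g A + T g B := by
  simp only [T, Matrix.mul_add, Matrix.trace_add, Complex.add_re]

lemma T_sub (A B : Matrix (Fin n) (Fin n) ℂ) : T g (A - B) = T g A - T g B := by
  simp only [T, Matrix.mul_sub, Matrix.trace_sub, Complex.sub_re]

lemma T_smul (c : ℝ) (A : Matrix (Fin n) (Fin n) ℂ) : T g ((c : ℂ) • A) = c * T g A := by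
  simp only [T, Matrix.mul_smul, Matrix.trace_smul, smul_eq_mul, Complex.re_ofReal_mul]

lemma T_nonneg (hg : g.PosDef) {A : Matrix (Fin n) (Fin n) ℂ} (hA : A.PosSemidef) : 0 ≤ T g A :=
  (Complex.le_def.1 (C2.trace_mul_nonneg hg.inv.posSemidef hA)).1

/-- `tr_b A` -/
def B (b : Matrix (Fin p) (Fin n) ℂ) (g A : Matrix (Fin n) (Fin n) ℂ) : ℝ := (trb b g A).re

lemma B_add (A A' : Matrix (Fin n) (Fin n) ℂ) : B b g (A + A') = B b g A + B b g A' := by
  simp only [B, trb_add, Complex.add_re]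

lemma B_sub (A A' : Matrix (Fin n) (Fin n) ℂ) : B b g (A - A') = B b g A - B b g A' := by
  simp only [B, trb_sub, Complex.sub_re]

lemma B_neg (A : Matrix (Fin n) (Fin n) ℂ) : B b g (-A) = -B b g A := by
  simp only [B, trb_neg, Complex.neg_re]

lemma B_smul (c : ℝ) (A : Matrix (Fin n) (Fin n) ℂ) : B b g ((c : ℂ) • A) = c * B b g A := by
  simp only [B, trb_smul, Complex.re_ofReal_mul]

lemma B_sum {ι : Type*} (s : Finset ι) (A : ι → Matrix (Fin n) (Fin n) ℂ) :
    B b g (∑ i ∈ s, A i) = ∑ i ∈ s, B b g (A i) := by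
  simp only [B, trb_sum, Complex.re_sum]

theorem point_ineq (hg : g.PosDef) (hχ : χ.PosDef) (hb : (gm b g).det ≠ 0)
    {Dm : Fin M → Matrix (Fin n) (Fin n) ℂ} {dl : Fin M → ℝ} {K : Fin M → ℕ} {μ : ℕ}
    {f : Fin M → ℝ} {t β C₀ Ca : ℝ} (hK : ∀ i, (K i : ℝ) ≤ μ * dl i) (hC₀ : 0 ≤ C₀)
    (hCa : 0 ≤ Ca) (hf0 : ∀ i, 0 ≤ f i) (hf1 : ∀ i, f i ≤ 1) (ht : 0 ≤ t) (hβ : 0 ≤ β)
    (h1 : (Θ + (t : ℂ) • χ).PosSemidef)
    (h2 : ∀ i, (Dm i + ((C₀ * f i : ℝ) : ℂ) • χ).PosSemidef)
    (h3 : 1 ≤ β ∨ ∀ i, K i ≠ 0 → ∃ (ξ : Fin n → ℂ) (l : Fin p → ℂ),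
      (((C₀ * f i : ℝ) : ℂ) • χ + ((f i : ℝ) : ℂ) • Matrix.vecMulVec ξ (star ξ) -
        Dm i).PosSemidef ∧ qf χ (fun k => ξ k - ∑ j, l j * b j k) ≤ Ca) :
    -(μ * (T g Θ + t * T g χ) + ∑ i, (μ * dl i * C₀ + K i * Ca) * (f i * T g χ) +
        β * ∑ i, if K i = 0 then 0 else K i * (T g (Dm i) + C₀ * T g χ)) ≤
      μ * B b g (-Θ + ∑ i, ((dl i : ℝ) : ℂ) • Dm i) - ∑ i, K i * T g (Dm i) := by
  have hX0 : 0 ≤ T g χ := T_nonneg hg hχ.posSemidef
  have hBX0 : 0 ≤ B b g χ := trb_nonneg hg hχ.posSemidef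
  have hBX1 : B b g χ ≤ T g χ := trb_le hg hb hχ.posSemidef
  -- the term with `Θ`
  have a1 : B b g Θ ≤ T g Θ + t * T g χ := by
    have e1 : B b g (Θ + (t : ℂ) • χ) ≤ T g (Θ + (t : ℂ) • χ) := trb_le hg hb h1
    rw [B_add, T_add, B_smul, T_smul] at e1
    have : 0 ≤ t * B b g χ := mul_nonneg ht hBX0
    linarith
  -- the terms with `Dm i`
  have a2 : ∀ i, -(C₀ * f i * T g χ) ≤ B b g (Dm i) := by
    intro i
    have e1 : 0 ≤ B b g (Dm i + ((C₀ * f i : ℝ) : ℂ) • χ) := trb_nonneg hg (h2 i)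
    rw [B_add, B_smul] at e1
    have : C₀ * f i * B b g χ ≤ C₀ * f i * T g χ :=
      mul_le_mul_of_nonneg_left hBX1 (mul_nonneg hC₀ (hf0 i))
    linarith
  have a3 : ∀ i, 0 ≤ T g (Dm i) + C₀ * T g χ := by
    intro i
    have e1 : 0 ≤ T g (Dm i + ((C₀ * f i : ℝ) : ℂ) • χ) := T_nonneg hg (h2 i)
    rw [T_add, T_smul] at e1
    have : C₀ * f i * T g χ ≤ C₀ * 1 * T g χ :=
      mul_le_mul_of_nonneg_right (mul_le_mul_of_nonneg_left (hf1 i) hC₀) hX0
    linarith
  have a4 : ∀ i, K i ≠ 0 → T g (Dm i) - B b g (Dm i) ≤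
      (C₀ + Ca) * (f i * T g χ) + β * (T g (Dm i) + C₀ * T g χ) := by
    intro i hi
    have hfX : 0 ≤ f i * T g χ := mul_nonneg (hf0 i) hX0
    rcases h3 with h3 | h3
    · have e1 := a2 i
      have e2 : 1 * (T g (Dm i) + C₀ * T g χ) ≤ β * (T g (Dm i) + C₀ * T g χ) :=
        mul_le_mul_of_nonneg_right h3 (a3 i)
      have e3 : 0 ≤ C₀ * T g χ := mul_nonneg hC₀ hX0
      have e4 : 0 ≤ Ca * (f i * T g χ) := mul_nonneg hCa hfX
      nlinarith
    · obtain ⟨ξ, l, hp, hq⟩ := h3 i hi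
      have e1 : B b g (((C₀ * f i : ℝ) : ℂ) • χ + ((f i : ℝ) : ℂ) • Matrix.vecMulVec ξ (star ξ) -
          Dm i) ≤ T g (((C₀ * f i : ℝ) : ℂ) • χ + ((f i : ℝ) : ℂ) • Matrix.vecMulVec ξ (star ξ) -
          Dm i) := trb_le hg hb hp
      rw [B_sub, B_add, B_smul, B_smul, T_sub, T_add, T_smul, T_smul] at e1
      have e2 : T g (Matrix.vecMulVec ξ (star ξ)) - B b g (Matrix.vecMulVec ξ (star ξ)) ≤
          qf g (fun k => ξ k - ∑ j, l j * b j k) := trF_vec_le hg hb ξ l
      have e3 : qf g (fun k => ξ k - ∑ j, l j * b j k) ≤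
          T g χ * qf χ (fun k => ξ k - ∑ j, l j * b j k) := qf_le hg hχ _
      have e4 : T g χ * qf χ (fun k => ξ k - ∑ j, l j * b j k) ≤ T g χ * Ca :=
        mul_le_mul_of_nonneg_left hq hX0
      have e5 : f i * (T g (Matrix.vecMulVec ξ (star ξ)) - B b g (Matrix.vecMulVec ξ (star ξ))) ≤
          f i * (T g χ * Ca) := mul_le_mul_of_nonneg_left (e2.trans (e3.trans e4)) (hf0 i)
      have e6 : 0 ≤ C₀ * f i * B b g χ := mul_nonneg (mul_nonneg hC₀ (hf0 i)) hBX0
      have e7 : 0 ≤ β * (T g (Dm i) + C₀ * T g χ) := mul_nonneg hβ (a3 i)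
      nlinarith
  have a5 : ∀ i, -((μ * dl i * C₀ + K i * Ca) * (f i * T g χ) +
      β * (if K i = 0 then 0 else K i * (T g (Dm i) + C₀ * T g χ))) ≤
      μ * (dl i * B b g (Dm i)) - K i * T g (Dm i) := by
    intro i
    have hfX : 0 ≤ f i * T g χ := mul_nonneg (hf0 i) hX0
    have b1 : (μ * dl i - K i) * -(C₀ * f i * T g χ) ≤ (μ * dl i - K i) * B b g (Dm i) :=
      mul_le_mul_of_nonneg_left (a2 i) (by linarith [hK i])
    by_cases hi : K i = 0
    · rw [if_pos hi]
      rw [hi] at b1 ⊢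
      push_cast at b1 ⊢
      nlinarith
    · rw [if_neg hi]
      have b2 : (K i : ℝ) * (T g (Dm i) - B b g (Dm i)) ≤ K i *
          ((C₀ + Ca) * (f i * T g χ) + β * (T g (Dm i) + C₀ * T g χ)) :=
        mul_le_mul_of_nonneg_left (a4 i hi) (Nat.cast_nonneg _)
      nlinarith
  have a6 : -(∑ i, (μ * dl i * C₀ + K i * Ca) * (f i * T g χ) +
        β * ∑ i, if K i = 0 then 0 else K i * (T g (Dm i) + C₀ * T g χ)) ≤
      ∑ i, (μ * (dl i * B b g (Dm i)) - K i * T g (Dm i)) := by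
    rw [Finset.mul_sum, ← Finset.sum_add_distrib, ← Finset.sum_neg_distrib]
    exact Finset.sum_le_sum fun i _ => a5 i
  rw [Finset.sum_sub_distrib] at a6
  have a7 : (μ : ℝ) * B b g (-Θ + ∑ i, ((dl i : ℝ) : ℂ) • Dm i) =
      -(μ * B b g Θ) + ∑ i, μ * (dl i * B b g (Dm i)) := by
    rw [B_add, B_neg, B_sum, mul_add, Finset.mul_sum]
    simp only [B_smul]
    ring
  have a8 : (μ : ℝ) * B b g Θ ≤ μ * (T g Θ + t * T g χ) :=
    mul_le_mul_of_nonneg_left a1 (Nat.cast_nonneg _)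
  rw [a7]
  linarith

end alg

section glob

variable {n M p : ℕ} {X : Type} [TopologicalSpace X] [ChartedSpace (Cm n) X]
  [IsManifold 𝓘(ℂ, Cm n) ω X]
  {Dv : Fin M → Set X} {r : Fin M → X → ℝ} {R : Fin M → D.FormM n X} {e : Chart n X} {x : X}

lemma isClosedForm_sum (s : Finset (Fin M)) (a : Fin M → ℂ) (hR : ∀ i, IsClosedForm (R i)) :
    IsClosedForm (n := n) fun e z => ∑ i ∈ s, a i • R i e z := by
  classical
  induction s using Finset.induction_on with
  | empty =>
    refine ⟨fun e x _ i j => by simpa using contDiffAt_const, fun e e' x _ _ => by simp,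
      fun e x _ i k l => ?_⟩
    simp only [Finset.sum_empty, Matrix.zero_apply]
    rw [C2.dz_const, C2.dz_const]
  | insert i s hi ih =>
    simp only [Finset.sum_insert hi]
    exact ((hR i).smul (a i)).add ih

lemma isClosed_curvK {φ : Chart n X → Cm n → ℝ} {m : ℕ} {ρ : X → ℝ} {δ : ℝ} {dl : Fin M → ℝ}
    (hφ : IsCanonicalMetric φ) (hρ : SmoothFn (n := n) ρ) (h0 : ∀ x, 0 ≤ ρ x) (hδ : 0 < δ)
    (hR : ∀ i, IsClosedForm (R i)) : IsClosedForm (curvK φ m ρ δ dl R) :=
  (INT.isClosedForm_canonical (Vale.Agent.P281.H167.GM.isCanonical_phiD hφ hρ h0 hδ)).add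
    (isClosedForm_sum Finset.univ _ hR)

lemma isClosed_dF {ρ : X → ℝ} {R : D.FormM n X} {ε : ℝ} (hρ : SmoothFn (n := n) ρ)
    (h0 : ∀ x, 0 ≤ ρ x) (hε : 0 < ε) (hR : IsClosedForm R) : IsClosedForm (dF ρ R ε) := by
  have h1 : SmoothFn (n := n) fun x => Real.log (ρ x + ε) :=
    sm_log (sm_add hρ (smoothFn_const ε)) fun x => by have := h0 x; linarith
  exact (INT.isClosedForm_cHess h1).add hR

lemma cont_trX {g A : D.FormM n X} (hg : IsHermitian g) (hA : IsClosedForm A) :
    Continuous (trX g A) :=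
  INT.SmoothFn.continuous (smoothFn_trX hg hA.form hA.smooth)

lemma isClosedForm_of_kahler {g : D.FormM n X} (hg : IsKahler g) : IsClosedForm g :=
  INT.IsKahler.isClosedForm hg

/-- `∂S = 0` where `S = 0`, `S ≥ 0` -/
lemma gradX_zero {g : D.FormM n X} (hg : IsHermitian g) {S : X → ℝ} (hS : SmoothFn (n := n) S)
    (h0 : ∀ x, 0 ≤ S x) (hx : S x = 0) : gradX g S S x = 0 := by
  have hc := AMP.at_chartAt (n := n) x
  have h1 : IsLocalMin (fun y => ((S ((chartAt (Cm n) x : Chart n X).symm y) : ℝ)))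
      ((chartAt (Cm n) x : Chart n X) x) := by
    refine Filter.Eventually.of_forall fun y => ?_
    show S _ ≤ S _
    rw [hc.left_inv, hx]
    exact h0 _
  have h2 := h1.fderiv_eq_zero
  have h3 : xi S (chartAt (Cm n) x) ((chartAt (Cm n) x : Chart n X) x) = 0 := by
    funext i
    have h4 : DifferentiableAt ℝ (fun y => ((S ((chartAt (Cm n) x : Chart n X).symm y) : ℝ)))
      ((chartAt (Cm n) x : Chart n X) x) := (hS _ x hc).differentiableAt (by simp)
    have h5 : HasFDerivAt (fun y => ((S ((chartAt (Cm n) x : Chart n X).symm y) : ℝ) : ℂ))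
        (Complex.ofRealCLM.comp (0 : Cm n →L[ℝ] ℝ)) ((chartAt (Cm n) x : Chart n X) x) := by
      have := h4.hasFDerivAt
      rw [h2] at this
      exact Complex.ofRealCLM.hasFDerivAt.comp _ this
    simp only [xi, dz]
    rw [h5.fderiv]
    simp
  rw [gradX_eq hg hS hS hc, gradE_eq_qf, h3]
  simp [qf]

end glob

open Vale.Agent.P281.H713.KD in
/-- **Block KD-BK**. -/
theorem bochPartK (hBdP : BdPart) : BochPartK := by
  intro n M X _ _ _ _ _ _ χ hχ φ hφ m hm ρ hρ hρ0 Dv r R hBd dl hdl C hC hcurv p μ K hK N₀ N₁ hdec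
  obtain ⟨hrs, ⟨C₀, hC₀, hB⟩, -⟩ := hBdP n M X χ hχ Dv r R hBd
  obtain ⟨𝒪, h𝒪, hgood⟩ := hdec.good
  have hr0 := r_nonneg hBd
  refine ⟨C₀, hC₀, fun a ha => ?_⟩
  obtain ⟨Ca, hCa⟩ := hgood a ha
  set Cb : ℝ := max Ca 0 with hCb
  have hCb0 : 0 ≤ Cb := le_max_right _ _
  have hCi : ∀ i, 0 ≤ μ * dl i * C₀ + K i * Cb := fun i =>
    add_nonneg (mul_nonneg (mul_nonneg (Nat.cast_nonneg _) (hdl i)) hC₀)
      (mul_nonneg (Nat.cast_nonneg _) hCb0)
  refine ⟨∑ i, (μ * dl i * C₀ + K i * Cb), Finset.sum_nonneg fun i _ => hCi i, ?_⟩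
  intro β hβc hβ0 hβ1 δ ε hδ hε hε1 g c hg hvol N hN
  have hgH := hg.toIsHermitian
  have hNs : SmoothFn (n := n) (N g) := by
    rcases hN with rfl | rfl
    · exact (hdec.smooth g hg).1
    · exact (hdec.smooth g hg).2
  have hN0 : ∀ x, 0 ≤ N g x := by
    intro x
    rcases hN with rfl | rfl
    · exact (hdec.nonneg g x hg).1
    · exact (hdec.nonneg g x hg).2
  set S : X → ℝ := fun x => N g x * ∏ i, (r i x + ε)⁻¹ ^ K i with hS
  have hrε : ∀ i x, 0 < r i x + ε := fun i x => by have := hr0 i x; linarith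
  have hSs : SmoothFn (n := n) S := by
    intro e x hx
    refine (hNs e x hx).mul (contDiffAt_prod fun i _ => ContDiffAt.pow (ContDiffAt.inv
      ((hrs i e x hx).add contDiffAt_const) ?_) _)
    exact (hrε i _).ne'
  have hS0 : ∀ x, 0 ≤ S x := fun x => mul_nonneg (hN0 x)
    (Finset.prod_nonneg fun i _ => pow_nonneg (inv_nonneg.2 (hrε i x).le) _)
  have hRc := hBd.closed
  have hcK : IsClosedForm (curvK φ m ρ δ dl R) := isClosed_curvK hφ hρ hρ0 hδ hRc
  have hcD : ∀ i, IsClosedForm (dF (r i) (R i) ε) := fun i =>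
    isClosed_dF (hrs i) (hr0 i) hε (hRc i)
  have hcχ : IsClosedForm χ := isClosedForm_of_kahler hχ
  have hρδ : ∀ x, 0 < ρ x + δ := fun x => by have := hρ0 x; linarith
  have hcρ : Continuous ρ := INT.SmoothFn.continuous hρ
  have hcr : ∀ i, Continuous (r i) := fun i => INT.SmoothFn.continuous (hrs i)
  set τ : X → ℝ := fun x => μ * (trX g (curvK φ m ρ δ dl R) x + C * (δ / (ρ x + δ)) *
      trX g χ x) + (∑ i, (μ * dl i * C₀ + K i * Cb)) * ∑ i, ε / (r i x + ε) * trX g χ x +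
      β x * ∑ i, if K i = 0 then 0 else K i * (trX g (dF (r i) (R i) ε) x + C₀ * trX g χ x)
    with hτ
  have hτc : Continuous τ := by
    have k1 := cont_trX hgH hcK
    have k2 := cont_trX hgH hcχ
    have k3 : Continuous fun x => δ / (ρ x + δ) :=
      continuous_const.div (hcρ.add continuous_const) fun x => (hρδ x).ne'
    have k4 : Continuous fun x => ∑ i, ε / (r i x + ε) * trX g χ x :=
      continuous_finset_sum _ fun i _ => (continuous_const.div ((hcr i).add continuous_const)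
        fun x => (hrε i x).ne').mul k2
    have k5 : Continuous fun x => ∑ i, if K i = 0 then (0 : ℝ) else
        K i * (trX g (dF (r i) (R i) ε) x + C₀ * trX g χ x) := by
      refine continuous_finset_sum _ fun i _ => ?_
      by_cases hi : K i = 0
      · simp only [hi, if_true]
        exact continuous_const
      · simp only [hi, if_false]
        exact continuous_const.mul ((cont_trX hgH (hcD i)).add (continuous_const.mul k2))
    exact ((continuous_const.mul (k1.add ((continuous_const.mul k3).mul k2))).add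
      (continuous_const.mul k4)).add (hβc.mul k5)
  show BochF g τ S
  have hSc : Continuous S := INT.SmoothFn.continuous hSs
  have hgc : Continuous (gradX g S S) := INT.SmoothFn.continuous (smoothFn_gradX hgH hSs hSs)
  have hlc : Continuous (lapX g S) := INT.SmoothFn.continuous (smoothFn_lapX hgH hSs)
  have key : ∀ x ∈ 𝒪, gradX g S S x ≤ S x * lapX g S x + τ x * S x ^ 2 := by
    intro x hxO
    rcases (hS0 x).eq_or_lt with h0 | h0
    · rw [gradX_zero hgH hSs hS0 h0.symm, ← h0]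
      simp
    obtain ⟨hrp, e, b, c₀, c₁, hx, hb, hc₀, hc₁, hloc, hq⟩ := hCa x hxO
    have hgP := hg.posDef e x hx
    have hχP := hχ.posDef e x hx
    -- the local form of `S`
    obtain ⟨cc, hcc, hlocS⟩ : ∃ cc : Cm n → ℂ, AnalyticAt ℂ cc (e x) ∧
        ∀ᶠ z in 𝓝 (e x), S (e.symm z) = ‖cc z‖ ^ 2 * (∏ i, r i (e.symm z) ^ K i) *
          gramD (b z) (g e z) ^ μ * ∏ i, (r i (e.symm z) + ε)⁻¹ ^ K i := by
      rcases hN with rfl | rfl
      · refine ⟨c₀, hc₀, ?_⟩
        filter_upwards [hloc g hg] with z hz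
        simp only [hS]
        rw [hz.1]
      · refine ⟨c₁, hc₁, ?_⟩
        filter_upwards [hloc g hg] with z hz
        simp only [hS]
        rw [hz.2]
    obtain ⟨hdet, hL⟩ := cHess_log_S hBd hrs hx hrp hε hg hcc hb hSs h0 hlocS
    -- reduction to `Δ log S ≥ - τ`
    suffices hmain : -τ x ≤
        ((g e (e x))⁻¹ * cHess (fun z => Real.log (S (e.symm z))) (e x)).trace.re by
      have hsx : S (e.symm (e x)) = S x := by rw [hx.left_inv]
      have h2 : ContDiffAt ℝ 2 (fun z => S (e.symm z)) (e x) := (hSs e x hx).of_le (by norm_cast)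
      have e1 : cHess (fun z => Real.log (S (e.symm z))) (e x) =
          (((S x)⁻¹ : ℝ) : ℂ) • hess S e (e x) - (((S x ^ 2)⁻¹ : ℝ) : ℂ) • dd S S e (e x) := by
        ext k l
        rw [C2.cHess_log h2 (by rw [hsx]; exact h0) k l, hsx]
        simp only [Matrix.sub_apply, Matrix.smul_apply, smul_eq_mul, hess, dd, Matrix.of_apply]
        push_cast
        rfl
      have e2 : ((g e (e x))⁻¹ * cHess (fun z => Real.log (S (e.symm z))) (e x)).trace.re =
          (S x)⁻¹ * lapX g S x - (S x ^ 2)⁻¹ * gradX g S S x := by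
        rw [e1, lapX_eq hgH hSs hx, gradX_eq hgH hSs hSs hx, Matrix.mul_sub, Matrix.mul_smul,
          Matrix.mul_smul, Matrix.trace_sub, Matrix.trace_smul, Matrix.trace_smul, Complex.sub_re,
          smul_eq_mul, smul_eq_mul, Complex.re_ofReal_mul, Complex.re_ofReal_mul]
        rfl
      rw [e2] at hmain
      have e3 := mul_le_mul_of_nonneg_left hmain (by positivity : (0 : ℝ) ≤ S x ^ 2)
      have e4 : S x ^ 2 * ((S x)⁻¹ * lapX g S x - (S x ^ 2)⁻¹ * gradX g S S x) =
          S x * lapX g S x - gradX g S S x := by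
        field_simp
      rw [e4] at e3
      linarith
    -- values at `x` in the chart `e`
    have t1 : trX g χ x = T (g e (e x)) (χ e (e x)) := trX_eq hgH hcχ.form hx
    have t2 : trX g (curvK φ m ρ δ dl R) x = T (g e (e x)) (curvK φ m ρ δ dl R e (e x)) :=
      trX_eq hgH hcK.form hx
    have t3 : ∀ i, trX g (dF (r i) (R i) ε) x = T (g e (e x)) (dF (r i) (R i) ε e (e x)) :=
      fun i => trX_eq hgH (hcD i).form hx
    have hX0 : 0 ≤ T (g e (e x)) (χ e (e x)) := T_nonneg hgP hχP.posSemidef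
    have hf0 : ∀ i, 0 ≤ ε / (r i x + ε) := fun i => div_nonneg hε.le (hrε i x).le
    have hf1 : ∀ i, ε / (r i x + ε) ≤ 1 := fun i => by
      rw [div_le_one (hrε i x)]
      linarith [hr0 i x]
    have hCle : ∑ i, (μ * dl i * C₀ + K i * Cb) * (ε / (r i x + ε) * T (g e (e x)) (χ e (e x))) ≤
        (∑ i, (μ * dl i * C₀ + K i * Cb)) * ∑ i, ε / (r i x + ε) * trX g χ x := by
      rw [t1, Finset.sum_mul]
      refine Finset.sum_le_sum fun i _ => mul_le_mul_of_nonneg_left ?_ (hCi i)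
      exact Finset.single_le_sum (f := fun i => ε / (r i x + ε) * T (g e (e x)) (χ e (e x)))
        (fun j _ => mul_nonneg (hf0 j) hX0) (Finset.mem_univ i)
    refine le_trans ?_ hL
    by_cases hμ : μ = 0
    · have hK0 : ∀ i, K i = 0 := by
        intro i
        have := hK i
        rw [hμ] at this
        simp only [Nat.cast_zero, zero_mul] at this
        exact_mod_cast le_antisymm this (Nat.cast_nonneg _)
      have z1 : (μ : ℝ) * (trb (b (e x)) (g e (e x)) (D.ric g e (e x))).re -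
          ∑ i, K i * trE g (dF (r i) (R i) ε) e (e x) = 0 := by
        rw [hμ]
        simp [hK0]
      rw [z1, hτ]
      have z2 : 0 ≤ (∑ i, (μ * dl i * C₀ + K i * Cb)) * ∑ i, ε / (r i x + ε) * trX g χ x := by
        refine mul_nonneg (Finset.sum_nonneg fun i _ => hCi i) (Finset.sum_nonneg fun i _ => ?_)
        rw [t1]
        exact mul_nonneg (hf0 i) hX0
      have z3 : ∑ i, (if K i = 0 then (0 : ℝ) else
          K i * (trX g (dF (r i) (R i) ε) x + C₀ * trX g χ x)) = 0 := by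
        refine Finset.sum_eq_zero fun i _ => ?_
        rw [if_pos (hK0 i)]
      simp only [z3, mul_zero, add_zero]
      rw [hμ] at z2 ⊢
      simp only [Nat.cast_zero, zero_mul, zero_add] at z2 ⊢
      linarith
    · have hdet' := hdet hμ
      -- the Ricci form
      have hric : D.ric g e (e x) = -curvK φ m ρ δ dl R e (e x) +
          ∑ i, ((dl i : ℝ) : ℂ) • dF (r i) (R i) ε e (e x) := by
        have e1 : (fun z => Real.log (g e z).det.re) =ᶠ[𝓝 (e x)]
            fun z => (phiD φ m ρ δ e z - ∑ i, dl i * Real.log (r i (e.symm z) + ε)) + c := by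
          filter_upwards [eventually_at hx] with z hz
          have := hvol e _ hz.1
          rw [hz.2] at this
          exact this
        have s1 : ContDiffAt ℝ 2 (phiD φ m ρ δ e) (e x) :=
          ((Vale.Agent.P281.H167.GM.isCanonical_phiD (m := m) hφ hρ hρ0 hδ).smooth e x hx).of_le
            (by norm_cast)
        have s2 : ∀ i, ContDiffAt ℝ 2 (fun z => Real.log (r i (e.symm z) + ε)) (e x) := fun i =>
          (((hrs i e x hx).of_le (by norm_cast)).add contDiffAt_const).log (hrε i _).ne'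
        have s3 : ∀ i ∈ (Finset.univ : Finset (Fin M)),
            ContDiffAt ℝ 2 (fun z => dl i * Real.log (r i (e.symm z) + ε)) (e x) := fun i _ =>
          contDiffAt_const.mul (s2 i)
        have s4 : ContDiffAt ℝ 2 (fun z => ∑ i, dl i * Real.log (r i (e.symm z) + ε)) (e x) :=
          ContDiffAt.sum s3
        show -cHess (fun z => Real.log (g e z).det.re) (e x) = _
        rw [C2.cHess_congr e1, C2.cHess_add (s1.sub s4) contDiffAt_const, C2.cHess_const, add_zero,
          C2.cHess_sub s1 s4, cHess_sum _ s3]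
        simp only [fun i => C2.cHess_const_mul (dl i) (s2 i), curvK, dF, smul_add,
          Finset.sum_add_distrib]
        abel
      have hpi := point_ineq (μ := μ) (f := fun i => ε / (r i x + ε)) (β := β x)
        (t := C * (δ / (ρ x + δ))) (C₀ := C₀) (Ca := Cb) (dl := dl) (K := K)
        (Θ := curvK φ m ρ δ dl R e (e x)) (Dm := fun i => dF (r i) (R i) ε e (e x))
        hgP hχP hdet' hK hC₀ hCb0 hf0 hf1
        (mul_nonneg hC (div_nonneg hδ.le (hρδ x).le)) (hβ0 x) (hcurv δ hδ e x hx)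
        (fun i => ((hB i e x hx).2.2 ε hε hε1).1)
        (by
          by_cases haa : a ≤ N₀ χ x + N₁ χ x
          · right
            intro i hi
            obtain ⟨l, hl⟩ := hq haa i hi
            exact ⟨xi (fun y => Real.log (r i y)) e (e x), l,
              ((hB i e x hx).2.2 ε hε hε1).2.2 (hrp i), hl.trans (le_max_left _ _)⟩
          · left
            exact hβ1 x (not_le.1 haa))
      rw [hric]
      refine le_trans ?_ hpi
      simp only [hτ, t1, t2, t3] at hCle ⊢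
      linarith
  intro x
  have hx : x ∈ closure 𝒪 := h𝒪 x
  have hcl : IsClosed {x | gradX g S S x ≤ S x * lapX g S x + τ x * S x ^ 2} :=
    isClosed_le hgc ((hSc.mul hlc).add (hτc.mul (hSc.pow 2)))
  exact closure_minimal (fun y hy => key y hy) hcl hx

end Vale.Agent.P281.H723.KD
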